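import Vale.Agent.P078.Local.Params.Ok

/-!
# The requirements can be met with small failure probability (`StmtParams`)
-/

noncomputable section

namespace Vale.Agent.P078.Local.Params

open Filter

theorem pow_le_exp {b : ℝ} (hb : 1 ≤ b) {n : ℕ} {y : ℝ} (h : (n : ℝ) ≤ y) :
    b ^ n ≤ Real.exp (y * Real.log b) := by
  rw [← Real.exp_log (by linarith : 0 < b), ← Real.exp_nat_mul, Real.log_exp]
  exact Real.exp_le_exp.2 (mul_le_mul_of_nonneg_right h (Real.log_nonneg hb))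

variable (D r Tc : ℕ) (t0 M : ℝ)

theorem lengths {X : ℕ} (hX : 1 ≤ X) (P : ℕ) :
    ((mk D r Tc X P t0 M).c1 : ℝ) ≤ 40 * (X : ℝ) ^ 76 ∧
    ((mk D r Tc X P t0 M).c2 : ℝ) ≤ 40 * (X : ℝ) ^ 56 ∧
    ((2 * (mk D r Tc X P t0 M).free : ℕ) : ℝ) ≤ (30 * Tc + 200) * (X : ℝ) ^ 98 := by
  have hx : (1 : ℝ) ≤ X := by exact_mod_cast hX
  have hp : ∀ {j k : ℕ}, j ≤ k → (X : ℝ) ^ j ≤ (X : ℝ) ^ k := fun h => pow_le_pow_right₀ hx h
  have p0 : ∀ k, (1 : ℝ) ≤ (X : ℝ) ^ k := fun k => one_le_pow₀ hx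
  refine ⟨?_, ?_, ?_⟩
  · simp only [Par.c1, Par.f1, mk, Fin.isValue, Matrix.cons_val]
    push_cast
    have e : (X : ℝ) ^ 22 * (X : ℝ) ^ 53 ≤ (X : ℝ) ^ 76 := by rw [← pow_add]; exact hp (by norm_num)
    have := hp (show 42 ≤ 76 by norm_num); have := hp (show 22 ≤ 76 by norm_num); have := p0 76
    linarith
  · simp only [Par.c2, Par.f2, mk, Fin.isValue, Matrix.cons_val]
    push_cast
    have e : (X : ℝ) ^ 14 * (X : ℝ) ^ 42 = (X : ℝ) ^ 56 := by rw [← pow_add]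
    have := hp (show 34 ≤ 56 by norm_num); have := hp (show 14 ≤ 56 by norm_num); have := p0 56
    linarith
  · simp only [Par.free, Par.f2, Par.f1, mk, Fin.isValue, Matrix.cons_val]
    push_cast
    have e1 : (X : ℝ) ^ 64 * (X : ℝ) ^ 34 = (X : ℝ) ^ 98 := by rw [← pow_add]
    have e2 : (X : ℝ) ^ 14 * (X : ℝ) ^ 42 ≤ (X : ℝ) ^ 98 := by rw [← pow_add]; exact hp (by norm_num)
    have e3 : (X : ℝ) ^ 22 * (X : ℝ) ^ 53 ≤ (X : ℝ) ^ 98 := by rw [← pow_add]; exact hp (by norm_num)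
    have := hp (show 64 ≤ 98 by norm_num); have := hp (show 14 ≤ 98 by norm_num)
    have := hp (show 22 ≤ 98 by norm_num); have := hp (show 53 ≤ 98 by norm_num); have := p0 98
    have hT : (0 : ℝ) ≤ Tc := Nat.cast_nonneg _
    have f1 := mul_le_mul_of_nonneg_left (hp (show 64 ≤ 98 by norm_num)) hT
    have f2 : (Tc : ℝ) * ((X : ℝ) ^ 64 * (X : ℝ) ^ 34) = (Tc : ℝ) * (X : ℝ) ^ 98 := by rw [e1]
    have f3 : (0 : ℝ) ≤ Tc * (X : ℝ) ^ 98 := by positivity
    linarith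

theorem eventually_reach (hr : 0 < r) (hM : 0 < M) :
    ∀ᶠ X : ℕ in atTop, ∀ P, (2 * ((D : ℝ) + 2)) ^ (mk D r Tc X P t0 M).c1
        * Real.sqrt ((mk D r Tc X P t0 M).pE 1) * (mk D r Tc X P t0 M).Nph ≤ 1 / 2 ∧
      (2 * ((D : ℝ) + 2)) ^ (mk D r Tc X P t0 M).c2
        * Real.sqrt ((mk D r Tc X P t0 M).pE 2) * (mk D r Tc X P t0 M).Nph ≤ 1 / 2 := by
  have hr' : (0 : ℝ) < r := by exact_mod_cast hr
  set B := 2 * ((D : ℝ) + 2) with hB
  have hB1 : 1 ≤ B := by rw [hB]; linarith [(Nat.cast_nonneg D : (0 : ℝ) ≤ D)]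
  set c := M / (128 * (1000 * (r : ℝ) ^ 2 * M ^ 2) ^ 2) with hc
  have hc0 : 0 < c := by positivity
  filter_upwards [eventually_ge_atTop 1,
    eventually_exp_le (2 * Tc) (40 * Real.log B) 200 (show 76 < 78 by norm_num) hc0 one_half_pos,
    eventually_exp_le (2 * Tc) (40 * Real.log B) 200 (show 56 < 64 by norm_num) hc0 one_half_pos]
    with X hX h1 h2 P
  obtain ⟨l1, l2, -⟩ := lengths D r Tc t0 M hX P
  have hN : ((mk D r Tc X P t0 M).Nph : ℝ) = Tc * (X : ℝ) ^ 100 := by rw [Nph_eq]; push_cast; rfl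
  have key : ∀ (i : Fin 3) (e j n : ℕ), ![0, 22, 36] i + e = 100 → (n : ℝ) ≤ 40 * (X : ℝ) ^ j →
      2 * (Tc : ℝ) * (X : ℝ) ^ 200 * Real.exp (40 * Real.log B * (X : ℝ) ^ j - c * (X : ℝ) ^ e)
        ≤ 1 / 2 →
      B ^ n * Real.sqrt ((mk D r Tc X P t0 M).pE i) * (mk D r Tc X P t0 M).Nph ≤ 1 / 2 := by
    intro i e j n he hn hle
    refine le_trans (mul_le_mul_of_nonneg_right (mul_le_mul (pow_le_exp hB1 hn)
      (sqrt_pE_le hX hM i he) (Real.sqrt_nonneg _) (Real.exp_pos _).le) (Nat.cast_nonneg _))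
      (le_trans (le_of_eq ?_) hle)
    rw [hN, ← hc, show (X : ℝ) ^ 200 = (X : ℝ) ^ 100 * (X : ℝ) ^ 100 by rw [← pow_add],
      sub_eq_add_neg, Real.exp_add, mul_right_comm 40 (Real.log B)]
    ring
  exact ⟨key 1 78 76 _ rfl l1 h1, key 2 64 56 _ rfl l2 h2⟩

theorem eventually_failG (hr : 0 < r) (hM : 0 < M) {δ : ℝ} (hδ : 0 < δ) :
    ∀ᶠ X : ℕ in atTop, ∀ P, (mk D r Tc X P t0 M).failG ≤ δ := by
  have hr' : (0 : ℝ) < r := by exact_mod_cast hr
  have hD : (0 : ℝ) ≤ D := Nat.cast_nonneg D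
  set c := M / (64 * (1000 * (r : ℝ) ^ 2 * M ^ 2) ^ 2) with hc
  have hc0 : 0 < c := by positivity
  have h2 : 0 < Real.log 2 := Real.log_pos one_lt_two
  set L := Real.log ((D : ℝ) + 2)
  set L' := Real.log (2 * ((D : ℝ) + 2))
  filter_upwards [eventually_ge_atTop 1,
    eventually_exp_le (4 * Tc) L 200 (show 99 < 100 by norm_num) hc0 (show 0 < δ / 5 by linarith),
    eventually_exp_le (4 * Tc) (30 * L) 200 (show 53 < 64 by norm_num) hc0
      (show 0 < δ / 5 by linarith),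
    eventually_exp_le (64 * Tc) (L' * (30 * Tc + 200)) 100 (show 98 < 99 by norm_num) h2
      (show 0 < δ / 5 by linarith)] with X hX ha hb hd P
  have hx : (1 : ℝ) ≤ X := by exact_mod_cast hX
  have hN : ((mk D r Tc X P t0 M).Nph : ℝ) = Tc * (X : ℝ) ^ 100 := by rw [Nph_eq]; push_cast; rfl
  have e200 : (X : ℝ) ^ 200 = (X : ℝ) ^ 100 * (X : ℝ) ^ 100 := by rw [← pow_add]
  have hball : ∀ (i : Fin 3) (e n : ℕ) (j : ℕ) (a : ℝ), ![0, 22, 36] i + e = 100 →
      (n : ℝ) ≤ a * (X : ℝ) ^ j →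
      2 * ((mk D r Tc X P t0 M).Nph : ℝ) * (mk D r Tc X P t0 M).vol n * (mk D r Tc X P t0 M).pE i
        ≤ 4 * (Tc : ℝ) * (X : ℝ) ^ 200 * Real.exp (a * L * (X : ℝ) ^ j - c * (X : ℝ) ^ e) := by
    intro i e n j a he hn
    refine le_trans (mul_le_mul (mul_le_mul_of_nonneg_left (pow_le_exp (by linarith) hn)
      (by positivity)) (pE_le hX hM i he) (by unfold Par.pE; positivity) (by positivity))
      (le_of_eq ?_)
    rw [hN, ← hc, e200, sub_eq_add_neg, Real.exp_add]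
    simp only [mk]
    rw [mul_right_comm a L]
    ring
  have h0 := hball 0 100 (mk D r Tc X P t0 M).Lg 99 1 rfl (by simp [mk])
  rw [one_mul] at h0
  have hR : ∀ i : Fin 3, 2 * ((mk D r Tc X P t0 M).Nph : ℝ)
      * (mk D r Tc X P t0 M).vol (30 * (mk D r Tc X P t0 M).R i) * (mk D r Tc X P t0 M).pE i
      ≤ δ / 5 := by
    intro i
    obtain ⟨hR53, -, hlen, -⟩ := exps i
    obtain ⟨d, hd'⟩ := Nat.exists_eq_add_of_le (show ![0, 22, 36] i ≤ 100 by omega)
    refine le_trans (hball i d _ 53 30 hd'.symm ?_) (le_trans (mul_le_mul_of_nonneg_left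
      (Real.exp_le_exp.2 (sub_le_sub_left (mul_le_mul_of_nonneg_left
        (pow_le_pow_right₀ hx (show 64 ≤ d by omega)) hc0.le) _)) (by positivity)) hb)
    rw [R_eq]
    push_cast
    exact mul_le_mul_of_nonneg_left (pow_le_pow_right₀ hx hR53) (by norm_num)
  have hthird : 64 * ((mk D r Tc X P t0 M).Nph : ℝ)
      * (2 * ((D : ℝ) + 2)) ^ (2 * (mk D r Tc X P t0 M).free) / 2 ^ (mk D r Tc X P t0 M).Lg
      ≤ δ / 5 := by
    refine le_trans (div_le_div_of_nonneg_right (mul_le_mul_of_nonneg_left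
      (pow_le_exp (by linarith) (lengths D r Tc t0 M hX P).2.2) (by positivity)) (by positivity))
      (le_trans (le_of_eq ?_) hd)
    have e2 : (2 : ℝ) ^ (mk D r Tc X P t0 M).Lg = Real.exp (Real.log 2 * (X : ℝ) ^ 99) := by
      rw [show (X : ℝ) ^ 99 = ((X ^ 99 : ℕ) : ℝ) by push_cast; rfl, mul_comm, Real.exp_nat_mul,
        Real.exp_log two_pos]
      rfl
    rw [e2, hN, sub_eq_add_neg, Real.exp_add, Real.exp_neg]
    simp only [L']
    ring
  unfold Par.failG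
  rw [Fin.sum_univ_three]
  have := hR 0; have := hR 1; have := hR 2
  have : 2 * ((mk D r Tc X P t0 M).Nph : ℝ) * (mk D r Tc X P t0 M).vol (mk D r Tc X P t0 M).Lg
      * (mk D r Tc X P t0 M).pE 0 ≤ δ / 5 := h0.trans ha
  have hDd : ((mk D r Tc X P t0 M).D : ℝ) = D := rfl
  rw [hDd]
  linarith

/-- The requirements can be met with small failure probability (`StmtParams`). -/
theorem paramsStmt (D r m : ℕ) (t0 M T δ : ℝ) (hr : 8 ≤ r) (ht : 0 < t0) (ht1 : t0 ≤ 1 / 4)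
    (hM : 1 ≤ M) (hT : 0 < T) (hδ : 0 < δ) :
    ∃ p : Par, p.D = D ∧ p.r = r ∧ p.t0 = t0 ∧ p.M = M ∧ p.Ok ∧ m ≤ p.rt ∧ T ≤ p.η * p.Nph ∧
      p.failG ≤ δ ∧ p.vol (2 * p.R 0) / p.P ≤ δ := by
  set Tc := ⌈T⌉₊
  have hTc : 0 < Tc := Nat.ceil_pos.2 hT
  have hr0 : 0 < r := by omega
  have hM0 : 0 < M := by linarith
  obtain ⟨X, hX, htail, hsmall, hreach, hfail⟩ := ((eventually_ge_atTop (max 64 m)).and
    ((eventually_tail D r Tc t0 M hTc ht).and ((eventually_small D r Tc t0 M hr0 hTc ht hM0).and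
      ((eventually_reach D r Tc t0 M hr0 hM0).and
        (eventually_failG D r Tc t0 M hr0 hM0 hδ))))).exists
  have h64 : 64 ≤ X := le_trans (le_max_left _ _) hX
  have hXp : 0 < X := by omega
  set P := ⌈((D : ℝ) + 2) ^ (2 * X ^ 53) / δ⌉₊ + 1 with hP
  have hself : ∀ k, 0 < k → X ≤ X ^ k := fun k hk => Nat.le_self_pow (by omega) X
  refine ⟨mk D r Tc X P t0 M, rfl, rfl, rfl, rfl, ?_, ?_, ?_, hfail P, ?_⟩
  · refine
      { r_ge := hr
        K1_pos := pow_pos hXp 22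
        K2_pos := pow_pos hXp 14
        N2_pos := Nat.mul_pos hTc (pow_pos hXp 64)
        P_pos := Nat.succ_pos _
        R_ge := fun i => ?_
        R_le := fun i => ?_
        rt_ge := fun i => ?_
        rt_le := ?_
        η_pos := by show (0 : ℝ) < 1 / _; positivity
        η_le := (hsmall P).1
        M_ge := hM
        t0_pos := ht
        t0_le := ht1
        tl_le := fun i => (htail P i).1
        tl_sum := fun i => (htail P i).2.1
        glue := fun i => (htail P i).2.2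
        crude := fun i => ((hsmall P).2 i).1
        kap := fun i => ((hsmall P).2 i).2.1
        kap9 := fun i => ((hsmall P).2 i).2.2.1
        drift := fun i => ((hsmall P).2 i).2.2.2
        reach1 := (hreach P).1
        reach2 := (hreach P).2 }
    · rw [R_eq]
      exact le_trans (by omega) (hself _ (lt_of_lt_of_le (by norm_num) (exps i).2.1))
    · rw [R_eq]
      exact Nat.pow_le_pow_right hXp (exps i).1
    · rw [R_eq]
      exact Nat.mul_le_mul (by norm_num) (Nat.pow_le_pow_right hXp (exps i).1)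
    · show 2 * (32 * X ^ 53) ≤ X ^ 99
      calc 2 * (32 * X ^ 53) = 64 * X ^ 53 := by ring
        _ ≤ X ^ 46 * X ^ 53 := Nat.mul_le_mul_right _ (le_trans h64 (hself 46 (by norm_num)))
        _ = X ^ 99 := by rw [← pow_add]
  · show m ≤ 32 * X ^ 53
    exact le_trans (le_trans (le_max_right _ _) hX)
      (le_trans (hself 53 (by norm_num)) (Nat.le_mul_of_pos_left _ (by norm_num)))
  · have hx : (0 : ℝ) < X := by exact_mod_cast hXp
    rw [Nph_eq]
    show T ≤ 1 / (X : ℝ) ^ 100 * ((Tc * X ^ 100 : ℕ) : ℝ)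
    push_cast
    rw [one_div_mul_eq_div, mul_div_assoc, div_self (by positivity), mul_one]
    exact Nat.le_ceil T
  · show ((D : ℝ) + 2) ^ (2 * X ^ 53) / (P : ℝ) ≤ δ
    have hPpos : (0 : ℝ) < P := by exact_mod_cast Nat.succ_pos _
    have h1 := (Nat.le_ceil (((D : ℝ) + 2) ^ (2 * X ^ 53) / δ)).trans
      (show (_ : ℝ) ≤ (P : ℝ) by rw [hP]; push_cast; linarith)
    rw [div_le_iff₀ hδ] at h1
    rw [div_le_iff₀ hPpos]
    linarith

end Vale.Agent.P078.Local.Params
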