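import Mathlib

/-!
# Powers and exponentials of a large natural parameter
-/

noncomputable section

namespace Vale.Agent.P078.Local.Params

open Filter Topology

/-- A larger power absorbs a constant. -/
theorem eventually_pow_le (C : ℝ) {j k : ℕ} (h : j < k) :
    ∀ᶠ X : ℕ in atTop, C * (X : ℝ) ^ j ≤ (X : ℝ) ^ k := by
  filter_upwards [eventually_ge_atTop 1,
    tendsto_natCast_atTop_atTop.eventually (eventually_ge_atTop C)] with X h1 hC
  have hX : (1 : ℝ) ≤ X := by exact_mod_cast h1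
  calc C * (X : ℝ) ^ j ≤ (X : ℝ) * (X : ℝ) ^ j := mul_le_mul_of_nonneg_right hC (by positivity)
    _ = (X : ℝ) ^ (j + 1) := by rw [pow_succ']
    _ ≤ (X : ℝ) ^ k := pow_le_pow_right₀ hX h

/-- `X ^ k exp (A X ^ j - c X ^ l)` tends to `0` for `j < l`. -/
theorem eventually_exp_le (C A : ℝ) (k : ℕ) {j l : ℕ} (h : j < l) {c ε : ℝ} (hc : 0 < c)
    (hε : 0 < ε) :
    ∀ᶠ X : ℕ in atTop, C * (X : ℝ) ^ k * Real.exp (A * (X : ℝ) ^ j - c * (X : ℝ) ^ l) ≤ ε := by
  have hlim : Tendsto (fun X : ℕ => |C| * (2 / c) ^ k *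
      ((c / 2 * X) ^ k * Real.exp (-(c / 2 * X)))) atTop (𝓝 0) := by
    have := ((Real.tendsto_pow_mul_exp_neg_atTop_nhds_zero k).comp
      ((tendsto_natCast_atTop_atTop (R := ℝ)).const_mul_atTop (half_pos hc))).const_mul
      (|C| * (2 / c) ^ k)
    simpa [Function.comp_def] using this
  filter_upwards [hlim.eventually_le_const hε, eventually_ge_atTop 1,
    eventually_pow_le (2 * A / c) h] with X hX h1 hA
  refine le_trans ?_ hX
  have h1' : (1 : ℝ) ≤ X := by exact_mod_cast h1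
  have e : |C| * (2 / c) ^ k * ((c / 2 * X) ^ k * Real.exp (-(c / 2 * X)))
      = |C| * (X : ℝ) ^ k * Real.exp (-(c / 2 * X)) := by
    rw [mul_assoc |C|, ← mul_assoc ((2 / c) ^ k), ← mul_pow, ← mul_assoc (2 / c),
      div_mul_div_cancel₀ hc.ne', div_self two_ne_zero, one_mul, ← mul_assoc]
  rw [e]
  refine mul_le_mul (mul_le_mul_of_nonneg_right (le_abs_self C) (by positivity)) ?_
    (Real.exp_pos _).le (by positivity)
  refine Real.exp_le_exp.2 ?_
  have h2 := mul_le_mul_of_nonneg_left hA hc.le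
  have h3 : c * (2 * A / c * (X : ℝ) ^ j) = 2 * (A * (X : ℝ) ^ j) := by field_simp
  have h4 : c / 2 * (X : ℝ) ≤ c / 2 * (X : ℝ) ^ l :=
    mul_le_mul_of_nonneg_left (le_self_pow₀ h1' (by omega)) (by positivity)
  linarith

end Vale.Agent.P078.Local.Params
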