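import Vale.Agent.P078.Local.Params.Sizes

/-!
# The requirements hold for large `X`
-/

noncomputable section

namespace Vale.Agent.P078.Local.Params

open Filter

variable (D r Tc : ℕ) (t0 M : ℝ)

theorem eventually_tail (hT : 0 < Tc) (ht : 0 < t0) :
    ∀ᶠ X : ℕ in atTop, ∀ P i, (mk D r Tc X P t0 M).tl i ≤ (mk D r Tc X P t0 M).rise i / 64 ∧
      ((mk D r Tc X P t0 M).Nph : ℝ) * (mk D r Tc X P t0 M).tl i ≤ 1 ∧
      16 * ((D : ℝ) + 1) ≤
        (mk D r Tc X P t0 M).rise i * ((mk D r Tc X P t0 M).R i : ℝ) ^ 2 := by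
  have hT' : (0 : ℝ) < Tc := by exact_mod_cast hT
  set κ := t0 / (64 * (Tc : ℝ)) with hκ
  have hκ0 : 0 < κ := by positivity
  have hc : 0 < Real.sqrt (κ / 64) := Real.sqrt_pos.2 (by positivity)
  filter_upwards [eventually_ge_atTop 1,
    eventually_pow_le (16 * ((D : ℝ) + 1) / κ) (show 0 < 4 by norm_num),
    eventually_exp_le (64 * 64 / (κ * κ)) 0 200 (show 0 < 2 by norm_num) hc one_pos,
    eventually_exp_le (64 * Tc / κ) 0 200 (show 0 < 2 by norm_num) hc one_pos]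
    with X hX hglue htl hsum P i
  have hXp : 0 < X := hX
  have hx : (1 : ℝ) ≤ X := by exact_mod_cast hX
  set p := mk D r Tc X P t0 M with hp
  have hr : κ * (X : ℝ) ^ (![0, 22, 36] i) ≤ p.rise i * (X : ℝ) ^ 100 := rise_ge hXp hT ht i
  set ρ := p.rise i
  have hρ : κ ≤ ρ * (X : ℝ) ^ 100 :=
    le_trans (le_mul_of_one_le_right hκ0.le (one_le_pow₀ hx)) hr
  have hρ0 : 0 < ρ := pos_of_mul_pos_left (hκ0.trans_le hρ) (by positivity)
  -- the product that all three requirements rest on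
  have hprod : κ * (X : ℝ) ^ 4 ≤ ρ * (p.R i : ℝ) ^ 2 := by
    refine le_of_mul_le_mul_right ?_ (by positivity : (0 : ℝ) < (X : ℝ) ^ 100)
    have hexp := (exps i).2.2.2
    rw [hp, R_eq, Nat.cast_pow, ← pow_mul, mul_comm (![53, 42, 34] i) 2,
      mul_assoc κ, ← pow_add, mul_right_comm]
    refine le_trans ?_ (mul_le_mul_of_nonneg_right hr (by positivity))
    rw [mul_assoc, ← pow_add]
    exact mul_le_mul_of_nonneg_left (pow_le_pow_right₀ hx (by omega)) hκ0.le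
  have htail : p.tl i ≤ 64 / κ * (X : ℝ) ^ 100 * Real.exp (0 * (X : ℝ) ^ 0
      - Real.sqrt (κ / 64) * (X : ℝ) ^ 2) := by
    unfold Par.tl tailB
    refine mul_le_mul ?_ (Real.exp_le_exp.2 ?_) (Real.exp_pos _).le (by positivity)
    · rw [div_div_eq_mul_div, show (8 : ℝ) * 8 = 64 by norm_num, div_mul_eq_mul_div,
        div_le_div_iff₀ hρ0 hκ0]
      linarith
    · rw [zero_mul, zero_sub, neg_le_neg_iff]
      refine le_of_pow_le_pow_left₀ two_ne_zero (by positivity) ?_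
      rw [mul_pow, mul_pow, Real.sq_sqrt (by positivity : (0 : ℝ) ≤ κ / 64),
        Real.sq_sqrt (by positivity : (0 : ℝ) ≤ ρ / 8 / 8), ← pow_mul]
      linarith
  set E := Real.exp (0 * (X : ℝ) ^ 0 - Real.sqrt (κ / 64) * (X : ℝ) ^ 2)
  refine ⟨?_, ?_, ?_⟩
  · have h1 : 64 * 64 / (κ * κ) * (X : ℝ) ^ 200 * E ≤ 1 := htl
    refine le_trans htail ?_
    refine le_trans (le_of_eq ?_) (le_trans (mul_le_mul_of_nonneg_left h1
      (by positivity : 0 ≤ κ / (64 * (X : ℝ) ^ 100))) ?_)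
    · rw [show (X : ℝ) ^ 200 = (X : ℝ) ^ 100 * (X : ℝ) ^ 100 by rw [← pow_add]]
      field_simp
    · rw [mul_one, div_le_div_iff₀ (by positivity) (by norm_num)]
      nlinarith
  · refine le_trans (mul_le_mul_of_nonneg_left htail (Nat.cast_nonneg _)) (le_trans (le_of_eq ?_) hsum)
    rw [hp, Nph_eq]
    push_cast
    rw [show (X : ℝ) ^ 200 = (X : ℝ) ^ 100 * (X : ℝ) ^ 100 by rw [← pow_add]]
    ring
  · refine le_trans ?_ hprod
    rw [pow_zero, mul_one, div_le_iff₀ hκ0] at hglue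
    linarith

theorem eventually_small (hr : 0 < r) (hT : 0 < Tc) (ht : 0 < t0) (hM : 0 < M) :
    ∀ᶠ X : ℕ in atTop, ∀ P, Real.sqrt (mk D r Tc X P t0 M).η ≤ (mk D r Tc X P t0 M).h0 / 5 ∧
      ∀ i, 8 * (r : ℝ) ^ 2 * (mk D r Tc X P t0 M).len i * Real.sqrt (mk D r Tc X P t0 M).η ≤ 1 ∧
        80 * (r : ℝ) ^ 2 * M * (mk D r Tc X P t0 M).len i * Real.sqrt (mk D r Tc X P t0 M).η
          ≤ 1 / 128 ∧
        (80 * (r : ℝ) ^ 2 * M * (mk D r Tc X P t0 M).len i
            * Real.sqrt (mk D r Tc X P t0 M).η) ^ 9 ≤ (mk D r Tc X P t0 M).rise i / 32 ∧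
        50 * (mk D r Tc X P t0 M).len i * (mk D r Tc X P t0 M).η * (mk D r Tc X P t0 M).jb ≤ 1 := by
  have hT' : (0 : ℝ) < Tc := by exact_mod_cast hT
  have hr' : (0 : ℝ) < r := by exact_mod_cast hr
  set κ := t0 / (64 * (Tc : ℝ)) with hκ
  have hκ0 : 0 < κ := by positivity
  filter_upwards [eventually_ge_atTop 1, eventually_pow_le (20 * (r : ℝ)) (show 0 < 50 by norm_num),
    eventually_pow_le (8 * (r : ℝ) ^ 2) (show 36 < 50 by norm_num),
    eventually_pow_le (128 * (80 * (r : ℝ) ^ 2 * M)) (show 36 < 50 by norm_num),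
    eventually_pow_le (32 * (80 * (r : ℝ) ^ 2 * M) ^ 9 / κ) (show 424 < 450 by norm_num),
    eventually_pow_le (50 * (1000 * (r : ℝ) ^ 2 * M ^ 2)) (show 36 < 100 by norm_num)]
    with X hX h1 h2 h3 h4 h5 P
  have hXp : 0 < X := hX
  have hx : (1 : ℝ) ≤ X := by exact_mod_cast hX
  rw [sqrt_η hXp]
  refine ⟨?_, fun i => ?_⟩
  · show _ ≤ 1 / (4 * (r : ℝ)) / 5
    rw [div_div, div_le_div_iff₀ (by positivity) (by positivity)]
    rw [pow_zero, mul_one] at h1
    linarith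
  have hL : ((mk D r Tc X P t0 M).len i : ℝ) ≤ (X : ℝ) ^ 36 := by
    rw [len_eq, Nat.cast_pow]; exact pow_le_pow_right₀ hx (exps i).2.2.1
  have h50 : (0 : ℝ) < (X : ℝ) ^ 50 := by positivity
  refine ⟨?_, ?_, ?_, ?_⟩
  · rw [mul_one_div, div_le_one h50]
    exact le_trans (mul_le_mul_of_nonneg_left hL (by positivity)) h2
  · rw [mul_one_div, div_le_iff₀ h50]
    have := mul_le_mul_of_nonneg_left hL (by positivity : 0 ≤ 80 * (r : ℝ) ^ 2 * M)
    linarith
  · have hrise := le_trans (le_mul_of_one_le_right hκ0.le (one_le_pow₀ hx))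
      (rise_ge (D := D) (r := r) (P := P) (M := M) hXp hT ht i)
    rw [mul_one_div, div_pow, mul_pow, ← pow_mul, div_le_div_iff₀ (by positivity) (by norm_num)]
    refine le_of_mul_le_mul_right ?_ (by positivity : (0 : ℝ) < (X : ℝ) ^ 100)
    refine le_trans ?_ (mul_le_mul_of_nonneg_right hrise (by positivity : 0 ≤ (X : ℝ) ^ (50 * 9))
      |>.trans (le_of_eq (by ring)))
    rw [show 32 * (80 * (r : ℝ) ^ 2 * M) ^ 9 / κ * (X : ℝ) ^ 424
      = (32 * (80 * (r : ℝ) ^ 2 * M) ^ 9 * (X : ℝ) ^ 424) / κ by ring, div_le_iff₀ hκ0] at h4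
    have h9 := pow_le_pow_left₀ (Nat.cast_nonneg _) hL 9
    rw [← pow_mul] at h9
    have h6 := mul_le_mul_of_nonneg_left h9 (by positivity : 0 ≤ (80 * (r : ℝ) ^ 2 * M) ^ 9)
    have h7 := mul_le_mul_of_nonneg_right h6 (by positivity : (0 : ℝ) ≤ (X : ℝ) ^ 100)
    rw [mul_assoc _ ((X : ℝ) ^ (36 * 9)), ← pow_add, show 36 * 9 + 100 = 424 from rfl] at h7
    rw [show 50 * 9 = 450 from rfl]
    linarith
  · have he : (mk D r Tc X P t0 M).η = 1 / (X : ℝ) ^ 100 := rfl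
    have hj : (mk D r Tc X P t0 M).jb = 1000 * (r : ℝ) ^ 2 * M ^ 2 := rfl
    rw [he, hj, mul_one_div, div_mul_eq_mul_div, div_le_one (by positivity)]
    refine le_trans (le_of_eq (mul_right_comm _ _ _)) ?_
    exact le_trans (mul_le_mul_of_nonneg_left hL (by positivity)) h5

end Vale.Agent.P078.Local.Params
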