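import Vale.Agent.P078.Local.Def.Par
import Vale.Agent.P078.Local.Params.Growth

/-!
# The parameters as powers of one large number `X`

`η = X^-100`, periods of `1, X^22, X^36` phases, radii `X^53, X^42, X^34`, `X^64 ⌈T⌉` top periods,
initial radius `X^99`.
-/

noncomputable section

namespace Vale.Agent.P078.Local.Params

/-- The parameters at size `X`, with `Tc` units of time. -/
def mk (D r Tc X P : ℕ) (t0 M : ℝ) : Par where
  D := D
  r := r
  K1 := X ^ 22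
  K2 := X ^ 14
  N2 := Tc * X ^ 64
  P := P
  R := ![X ^ 53, X ^ 42, X ^ 34]
  Lg := X ^ 99
  rt := 32 * X ^ 53
  η := 1 / (X : ℝ) ^ 100
  M := M
  t0 := t0

variable {D r Tc X P : ℕ} {t0 M : ℝ}

theorem len_eq (i : Fin 3) : (mk D r Tc X P t0 M).len i = X ^ (![0, 22, 36] i) := by
  fin_cases i <;> simp [Par.len, mk, ← pow_add]

theorem R_eq (i : Fin 3) : (mk D r Tc X P t0 M).R i = X ^ (![53, 42, 34] i) := by
  fin_cases i <;> rfl

theorem exps (i : Fin 3) : ![53, 42, 34] i ≤ 53 ∧ 34 ≤ ![53, 42, 34] i ∧ ![0, 22, 36] i ≤ 36 ∧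
    104 ≤ 2 * ![53, 42, 34] i + ![0, 22, 36] i := by
  fin_cases i <;> decide

theorem Nph_eq : (mk D r Tc X P t0 M).Nph = Tc * X ^ 100 := by
  simp only [Par.Nph, mk]; rw [← pow_add, mul_assoc, ← pow_add]

theorem sqrt_η (hX : 0 < X) : Real.sqrt (mk D r Tc X P t0 M).η = 1 / (X : ℝ) ^ 50 := by
  show Real.sqrt (1 / (X : ℝ) ^ 100) = _
  rw [show 1 / (X : ℝ) ^ 100 = (1 / (X : ℝ) ^ 50) ^ 2 by rw [div_pow, one_pow, ← pow_mul],
    Real.sqrt_sq (by positivity)]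

/-- The rises are at least `t0 / (64 Tc)` times `X ^ (len exponent - 100)`. -/
theorem rise_ge (hX : 0 < X) (hT : 0 < Tc) (ht : 0 < t0) (i : Fin 3) :
    t0 / (64 * Tc) * (X : ℝ) ^ (![0, 22, 36] i) ≤ (mk D r Tc X P t0 M).rise i * (X : ℝ) ^ 100 := by
  have e : ((mk D r Tc X P t0 M).Nph : ℝ) = Tc * (X : ℝ) ^ 100 := by rw [Nph_eq]; push_cast; rfl
  have hx : (0 : ℝ) < X := by exact_mod_cast hX
  have hT' : (0 : ℝ) < Tc := by exact_mod_cast hT
  have key : t0 / (64 * ((Tc : ℝ) * (X : ℝ) ^ 100)) * (X : ℝ) ^ 100 = t0 / (64 * Tc) := by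
    field_simp
  have h0 : 0 ≤ t0 / (64 * (Tc : ℝ)) := by positivity
  fin_cases i <;> simp only [Par.rise, e, Fin.isValue, Fin.reduceFinMk, Fin.zero_eta,
    Matrix.cons_val] <;> simp only [mk, Nat.cast_pow]
  · rw [pow_zero, mul_one, key]
  · rw [mul_assoc, key, mul_comm]
    exact mul_le_mul_of_nonneg_right (le_mul_of_one_le_left (by positivity) (by norm_num)) h0
  · rw [mul_assoc, key, mul_comm, mul_assoc (64 : ℝ), ← pow_add]
    exact mul_le_mul_of_nonneg_right (le_mul_of_one_le_left (by positivity) (by norm_num)) h0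

/-- Exits are as unlikely as `exp (-c X^64)`, and the higher the level the likelier. -/
theorem pE_le (hX : 1 ≤ X) (hM : 0 < M) (i : Fin 3) {e : ℕ} (he : ![0, 22, 36] i + e = 100) :
    (mk D r Tc X P t0 M).pE i ≤ 2 * (X : ℝ) ^ 100 *
      Real.exp (-(M / (64 * (1000 * (r : ℝ) ^ 2 * M ^ 2) ^ 2) * (X : ℝ) ^ e)) := by
  have hx : (1 : ℝ) ≤ X := by exact_mod_cast hX
  simp only [Par.pE, len_eq, Par.jb]
  simp only [mk, Nat.cast_pow]
  refine mul_le_mul ?_ (Real.exp_le_exp.2 (neg_le_neg (le_of_eq ?_))) (Real.exp_pos _).le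
    (by positivity)
  · rw [two_mul]
    exact add_le_add (pow_le_pow_right₀ hx (by omega)) (one_le_pow₀ hx)
  · have hp : (X : ℝ) ^ 100 = (X : ℝ) ^ (![0, 22, 36] i) * (X : ℝ) ^ e := by rw [← pow_add, he]
    rw [hp]
    field_simp

theorem sqrt_pE_le (hX : 1 ≤ X) (hM : 0 < M) (i : Fin 3) {e : ℕ} (he : ![0, 22, 36] i + e = 100) :
    Real.sqrt ((mk D r Tc X P t0 M).pE i) ≤ 2 * (X : ℝ) ^ 100 *
      Real.exp (-(M / (128 * (1000 * (r : ℝ) ^ 2 * M ^ 2) ^ 2) * (X : ℝ) ^ e)) := by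
  have hx : (1 : ℝ) ≤ X := by exact_mod_cast hX
  refine (Real.sqrt_le_sqrt (pE_le hX hM i he)).trans ?_
  rw [Real.sqrt_le_left (by positivity)]
  set y := M / (128 * (1000 * (r : ℝ) ^ 2 * M ^ 2) ^ 2) * (X : ℝ) ^ e with hy
  have e1 : M / (64 * (1000 * (r : ℝ) ^ 2 * M ^ 2) ^ 2) * (X : ℝ) ^ e = y + y := by rw [hy]; ring
  rw [e1, neg_add, Real.exp_add, mul_pow, sq (Real.exp _)]
  refine mul_le_mul_of_nonneg_right (le_self_pow₀ ?_ two_ne_zero) (by positivity)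
  linarith [one_le_pow₀ hx (n := 100)]

end Vale.Agent.P078.Local.Params
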